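import Vale.Agent.P147.Final
import Vale.Agent.P147.Moment

open MeasureTheory
open scoped ENNReal

namespace Vale.Agent.Results.P147.DirectionalZeroOne

open Vale.Agent.P147

/-- For every `d ≥ 2`, every iid elliptic environment law and every direction `ℓ ≠ 0`, the annealed
probability of escape in direction `ℓ` is zero or one; the first part says that the annealed law is the usual
one. -/
theorem result :
    ∀ (d : ℕ) [NeZero d], 2 ≤ d → ∀ (μ : Measure (Dir d → ℝ)) [IsProbabilityMeasure μ],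
      (∀ᵐ p ∂μ, (∀ e, 0 < p e) ∧ ∑ e, p e = 1) →
      (∀ (n : ℕ) (e : ℕ → Dir d),
        annealed μ {X | ∀ k ≤ n, X k = ∑ i ∈ Finset.range k, vec (e i)} =
          ∫⁻ ω, ∏ i ∈ Finset.range n,
            ENNReal.ofReal (ω (∑ j ∈ Finset.range i, vec (e j)) (e i)) ∂envLaw μ) ∧
      ∀ ℓ : Fin d → ℝ, ℓ ≠ 0 → annealed μ (Escape ℓ) = 0 ∨ annealed μ (Escape ℓ) = 1 := by
  intro d _ hd μ hprob hμ
  have : Law μ := ⟨hprob, hμ⟩
  exact ⟨fun n e => annealed_path μ n e, fun ℓ hℓ =>
    annealed_escape_zero_one μ hd (fun G hs h => G.exists_tailBound μ h hs) hℓ⟩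

end Vale.Agent.Results.P147.DirectionalZeroOne
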